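import Crest.Agent.Helper68.SW3.Avg
import Crest.Agent.Helper68.SW3.Fibre
import Crest.Agent.Helper56.SW.TablesTransport

/-!
# S0453, WP-D3 (leaves X3, X4 of helper68's plan): the three-body inequality on realizations

* `row_eq_iff` (X3): inside a `~_T`-class, two graphs have the same row `i` iff they are
  `~_{T ∖ {t i}}`-equivalent.
* `L3_fibre`: (L3) on a `~_T`-class, by transport along `row t` onto `Tab r c`.
* `threeBody_Om` (X4): `∑ f · R_T f ≤ ∑_i ∑ f · R_{T ∖ {t i}} f` on `realizations d`, and its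
  restatements `threeBody_Om_triple` (helper26's `h3` shape) and `threeBody_Om_powerset`
  (lead's (3B-Om)).

The two facts about margins (`row_margins`, `ofTable_mem`, helper68's `Margins.lean`) enter as the
explicit hypotheses `RowMargins d t` and `OfTableMem d t`.  (helper56)
-/

set_option autoImplicit false

namespace Crest.Agent.Helper56.SW

open Finset Crest.SwitchChain Crest.Agent.Helper65.Switch Crest.Agent.Helper68.SW3

theorem mem_Tab {C : Type*} [Fintype C] [DecidableEq C] {r : Fin 3 → ℕ} {c : C → ℕ}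
    {x : Fin 3 → Finset C} :
    x ∈ Tab r c ↔ (∀ i, (x i).card = r i) ∧
      ∀ w, (Finset.univ.filter (fun i => w ∈ x i)).card = c w := by
  rw [Tab, mem_filter]
  exact ⟨fun h => h.2, fun h => ⟨mem_univ _, h⟩⟩

variable {n : ℕ}

/-- The pair opposite to `t i` misses exactly `t i` among the triple. -/
lemma eq_t_of_mem_Tset_of_not_mem_pair {t : Fin 3 → Fin n} {i : Fin 3} {v : Fin n}
    (hv : v ∈ Tset t) (hv' : v ∉ ({t (i + 1), t (i + 2)} : Finset (Fin n))) : v = t i := by
  obtain ⟨j, rfl⟩ := mem_Tset.1 hv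
  rcases fin3_cases i j with rfl | rfl | rfl
  · rfl
  · exact absurd (by simp) hv'
  · exact absurd (by simp) hv'

lemma pair_subset_Tset (t : Fin 3 → Fin n) (i : Fin 3) :
    ({t (i + 1), t (i + 2)} : Finset (Fin n)) ⊆ Tset t := by
  intro v hv
  rw [mem_insert, mem_singleton] at hv
  rcases hv with rfl | rfl
  · exact t_mem_Tset t _
  · exact t_mem_Tset t _

/-- (X3, ⇒) Same row `i` (and same part off the triple) gives the same `~`-class of the
opposite pair. -/
lemma offU_pair_of_row_eq {t : Fin 3 → Fin n} {G G' : Finset (Edge n)}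
    (hoff : offU (Tset t) G = offU (Tset t) G') (i : Fin 3) (hrow : row t G i = row t G' i) :
    offU {t (i + 1), t (i + 2)} G = offU {t (i + 1), t (i + 2)} G' := by
  rw [offU_eq_iff]
  intro x y hx hy
  have hrowadj : ∀ v, v ∉ Tset t → (adj G (t i) v ↔ adj G' (t i) v) := by
    intro v hv
    rw [← mem_row_off (G := G) hv, ← mem_row_off (G := G') hv, hrow]
  by_cases hxT : x ∈ Tset t
  · have hx' := eq_t_of_mem_Tset_of_not_mem_pair hxT hx
    subst hx'
    by_cases hyT : y ∈ Tset t
    · have hy' := eq_t_of_mem_Tset_of_not_mem_pair hyT hy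
      subst hy'
      exact ⟨fun h => absurd h not_adj_self, fun h => absurd h not_adj_self⟩
    · exact hrowadj y hyT
  · by_cases hyT : y ∈ Tset t
    · have hy' := eq_t_of_mem_Tset_of_not_mem_pair hyT hy
      subst hy'
      rw [adj_comm, hrowadj x hxT, adj_comm]
    · exact offU_eq_iff.1 hoff x y hxT hyT

/-- The real part of a row. -/
lemma mem_row_erase {t : Fin 3 → Fin n} {G : Finset (Edge n)} {i : Fin 3} {w : Fin n} :
    w ∈ (row t G i).erase (t 0) ↔ adj G (t i) w ∧ w ∉ Tset t := by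
  rw [mem_erase, mem_row]
  constructor
  · rintro ⟨hne, h | h⟩
    · exact h
    · exact absurd h.2 hne
  · rintro ⟨h1, h2⟩
    refine ⟨?_, Or.inl ⟨h1, h2⟩⟩
    rintro rfl
    exact h2 (t_mem_Tset t 0)

/-- (X3) Inside a `~_T`-class, rows `i` agree iff the graphs are equivalent for the opposite
pair. -/
theorem row_eq_iff {t : Fin 3 → Fin n} (ht : Function.Injective t) {G G' : Finset (Edge n)}
    (hoff : offU (Tset t) G = offU (Tset t) G') (i : Fin 3)
    (hcard : (row t G i).card = (row t G' i).card) :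
    row t G i = row t G' i ↔
      offU {t (i + 1), t (i + 2)} G = offU {t (i + 1), t (i + 2)} G' := by
  refine ⟨offU_pair_of_row_eq hoff i, fun h => ?_⟩
  have hti : t i ∉ ({t (i + 1), t (i + 2)} : Finset (Fin n)) := by
    rw [mem_insert, mem_singleton]
    rintro (h' | h')
    · exact fin3_ne1 i (ht h')
    · exact fin3_ne2 i (ht h')
  have hadj : ∀ w, w ∉ Tset t → (adj G (t i) w ↔ adj G' (t i) w) := by
    intro w hw
    refine offU_eq_iff.1 h (t i) w hti (fun hw' => hw (pair_subset_Tset t i hw'))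
  have herase : (row t G i).erase (t 0) = (row t G' i).erase (t 0) := by
    ext w
    rw [mem_row_erase, mem_row_erase]
    constructor
    · rintro ⟨h1, h2⟩; exact ⟨(hadj w h2).1 h1, h2⟩
    · rintro ⟨h1, h2⟩; exact ⟨(hadj w h2).2 h1, h2⟩
  have ht0 : t 0 ∈ row t G i ↔ t 0 ∈ row t G' i := by
    by_cases h1 : t 0 ∈ row t G i <;> by_cases h2 : t 0 ∈ row t G' i
    · exact ⟨fun _ => h2, fun _ => h1⟩
    · exfalso
      have e1 := card_erase_of_mem h1
      have e2 := erase_eq_of_notMem h2
      have e3 : 0 < (row t G i).card := card_pos.2 ⟨_, h1⟩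
      rw [herase, e2] at e1
      omega
    · exfalso
      have e1 := card_erase_of_mem h2
      have e2 := erase_eq_of_notMem h1
      have e3 : 0 < (row t G' i).card := card_pos.2 ⟨_, h2⟩
      rw [← herase, e2] at e1
      omega
    · exact ⟨fun h => absurd h h1, fun h => absurd h h2⟩
  ext w
  by_cases hw : w = t 0
  · subst hw; exact ht0
  · have e1 : w ∈ row t G i ↔ w ∈ (row t G i).erase (t 0) := by
      rw [mem_erase]; exact ⟨fun h' => ⟨hw, h'⟩, fun h' => h'.2⟩
    have e2 : w ∈ row t G' i ↔ w ∈ (row t G' i).erase (t 0) := by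
      rw [mem_erase]; exact ⟨fun h' => ⟨hw, h'⟩, fun h' => h'.2⟩
    rw [e1, e2, herase]

/-- Hypothesis shape of helper68's `row_margins`: the margins are constant on a `~_T`-class. -/
def RowMargins (d : Fin n → ℕ) (t : Fin 3 → Fin n) : Prop :=
  ∀ {G₀ G : Finset (Edge n)}, G₀ ∈ realizations d → G ∈ cls d (Tset t) G₀ →
    (∀ i, (row t G i).card = (row t G₀ i).card) ∧
    ∀ w, (univ.filter (fun i => w ∈ row t G i)).card
      = (univ.filter (fun i => w ∈ row t G₀ i)).card

/-- Hypothesis shape of helper68's `ofTable_mem`: a table with the margins of `G₀` is the table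
of a graph in the `~_T`-class of `G₀`. -/
def OfTableMem (d : Fin n → ℕ) (t : Fin 3 → Fin n) : Prop :=
  ∀ {G₀ : Finset (Edge n)} {x : Fin 3 → Finset (Fin n)}, G₀ ∈ realizations d →
    (∀ i, (x i).card = (row t G₀ i).card) →
    (∀ w, (univ.filter (fun i => w ∈ x i)).card
      = (univ.filter (fun i => w ∈ row t G₀ i)).card) →
    ofTable t G₀ x ∈ cls d (Tset t) G₀ ∧ ∀ i, row t (ofTable t G₀ x) i = x i

/-- (L3) on a `~_T`-class of realizations. -/
theorem L3_fibre (hL3 : L3Colouring.{0}) {d : Fin n → ℕ} {t : Fin 3 → Fin n}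
    (hmarg : RowMargins d t) (hofT : OfTableMem d t)
    {G₀ : Finset (Edge n)} (hG₀ : G₀ ∈ realizations d)
    (g : Fin 3 → Finset (Edge n) → ℝ)
    (hg : ∀ i, ∀ G ∈ cls d (Tset t) G₀, ∀ G' ∈ cls d (Tset t) G₀,
        offU {t (i + 1), t (i + 2)} G = offU {t (i + 1), t (i + 2)} G' → g i G = g i G')
    (h0 : ∀ i, ∑ G ∈ cls d (Tset t) G₀, g i G = 0) :
    ∑ G ∈ cls d (Tset t) G₀, (∑ i, g i G) ^ 2
      ≤ 2 * ∑ G ∈ cls d (Tset t) G₀, ∑ i, (g i G) ^ 2 := by
  refine L3_of_bij hL3 (cls d (Tset t) G₀) (row t) (fun i => (row t G₀ i).card)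
    (fun w => (univ.filter (fun i => w ∈ row t G₀ i)).card) ?_ ?_ ?_ g ?_ h0
  · intro G hG
    exact mem_Tab.2 (hmarg hG₀ hG)
  · intro G hG G' hG' h
    refine eq_of_row_eq ?_ (fun i => congrFun h i)
    rw [(mem_cls.1 hG).2, (mem_cls.1 hG').2]
  · intro x hx
    have hx' := mem_Tab.1 hx
    obtain ⟨h1, h2⟩ := hofT hG₀ hx'.1 hx'.2
    exact ⟨ofTable t G₀ x, h1, funext h2⟩
  · intro i G hG G' hG' h
    refine hg i G hG G' hG' (offU_pair_of_row_eq ?_ i h)
    rw [(mem_cls.1 hG).2, (mem_cls.1 hG').2]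

/-- **(X4) Three-body inequality on realizations**: `⟨f, R_T f⟩ ≤ ∑_i ⟨f, R_{T ∖ {t i}} f⟩`. -/
theorem threeBody_Om (hL3 : L3Colouring.{0}) (d : Fin n → ℕ) (t : Fin 3 → Fin n)
    (hmarg : RowMargins d t) (hofT : OfTableMem d t) (f : Finset (Edge n) → ℝ) :
    ∑ G ∈ realizations d, f G * Rop d (Tset t) f G ≤
      ∑ i : Fin 3, ∑ G ∈ realizations d, f G * Rop d {t (i + 1), t (i + 2)} f G := by
  have h := threeBody_proj_abstract (realizations d) (offU (Tset t))
    (fun i => offU {t (i + 1), t (i + 2)})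
    (fun i x y hxy => offU_mono (pair_subset_Tset t i) hxy)
    (fun G₀ hG₀ g hg h0 => L3_fibre hL3 hmarg hofT hG₀ g hg h0) f
  rw [Finset.sum_comm]
  simp only [← Finset.mul_sum]
  exact h

/-! ### Restatements for a triple `a, b, c` -/

/-- The triple as a function on `Fin 3`. -/
def tri (a b c : Fin n) : Fin 3 → Fin n := ![a, b, c]

lemma tri_injective {a b c : Fin n} (hab : a ≠ b) (hac : a ≠ c) (hbc : b ≠ c) :
    Function.Injective (tri a b c) := by
  intro i j h
  fin_cases i <;> fin_cases j <;> simp [tri] at h ⊢ <;>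
    first | exact hab h | exact hab h.symm | exact hac h | exact hac h.symm | exact hbc h | exact hbc h.symm

lemma Tset_tri (a b c : Fin n) : Tset (tri a b c) = {a, b, c} := by
  ext v
  rw [mem_Tset, mem_insert, mem_insert, mem_singleton]
  constructor
  · rintro ⟨i, rfl⟩
    fin_cases i
    · exact Or.inl rfl
    · exact Or.inr (Or.inl rfl)
    · exact Or.inr (Or.inr rfl)
  · rintro (rfl | rfl | rfl)
    · exact ⟨0, rfl⟩
    · exact ⟨1, rfl⟩
    · exact ⟨2, rfl⟩

/-- **Three-body inequality, triple form** (the `h3` shape of helper26's `gap_pairs`). -/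
theorem threeBody_Om_triple (hL3 : L3Colouring.{0}) (d : Fin n → ℕ)
    (hmarg : ∀ t : Fin 3 → Fin n, Function.Injective t → RowMargins d t)
    (hofT : ∀ t : Fin 3 → Fin n, Function.Injective t → OfTableMem d t)
    (a b c : Fin n) (hab : a ≠ b) (hac : a ≠ c) (hbc : b ≠ c) (f : Finset (Edge n) → ℝ) :
    ∑ G ∈ realizations d, f G * (Qavg d {a, b} f G + Qavg d {a, c} f G + Qavg d {b, c} f G)
      ≤ 2 * ∑ G ∈ realizations d, f G ^ 2 + ∑ G ∈ realizations d, f G * Qavg d {a, b, c} f G := by
  have ht := tri_injective hab hac hbc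
  have h := threeBody_Om hL3 d (tri a b c) (hmarg _ ht) (hofT _ ht) f
  rw [Fin.sum_univ_three, Tset_tri] at h
  have e0 : ({tri a b c (0 + 1), tri a b c (0 + 2)} : Finset (Fin n)) = {b, c} := rfl
  have e1 : ({tri a b c (1 + 1), tri a b c (1 + 2)} : Finset (Fin n)) = {a, c} :=
    Finset.pair_comm c a
  have e2 : ({tri a b c (2 + 1), tri a b c (2 + 2)} : Finset (Fin n)) = {a, b} := rfl
  rw [e0, e1, e2] at h
  simp only [Rop_def, mul_sub, mul_add, Finset.sum_sub_distrib, Finset.sum_add_distrib] at h ⊢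
  have hsq : ∑ G ∈ realizations d, f G * f G = ∑ G ∈ realizations d, f G ^ 2 :=
    Finset.sum_congr rfl fun G _ => by ring
  rw [hsq] at h
  linarith

/-- **(3B-Om)**, lead's form: for a 3-set `T`,
`∑ f · R_T f ≤ ∑_{U ⊆ T, |U| = 2} ∑ f · R_U f`. -/
theorem threeBody_Om_powerset (hL3 : L3Colouring.{0}) (d : Fin n → ℕ)
    (hmarg : ∀ t : Fin 3 → Fin n, Function.Injective t → RowMargins d t)
    (hofT : ∀ t : Fin 3 → Fin n, Function.Injective t → OfTableMem d t)
    (T : Finset (Fin n)) (hT : T.card = 3) (f : Finset (Edge n) → ℝ) :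
    ∑ G ∈ realizations d, f G * Rop d T f G
      ≤ ∑ U ∈ T.powersetCard 2, ∑ G ∈ realizations d, f G * Rop d U f G := by
  obtain ⟨a, b, c, hab, hac, hbc, rfl⟩ := Finset.card_eq_three.1 hT
  have ht := tri_injective hab hac hbc
  have h := threeBody_Om hL3 d (tri a b c) (hmarg _ ht) (hofT _ ht) f
  rw [Fin.sum_univ_three, Tset_tri] at h
  have e0 : ({tri a b c (0 + 1), tri a b c (0 + 2)} : Finset (Fin n)) = {b, c} := rfl
  have e1 : ({tri a b c (1 + 1), tri a b c (1 + 2)} : Finset (Fin n)) = {a, c} :=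
    Finset.pair_comm c a
  have e2 : ({tri a b c (2 + 1), tri a b c (2 + 2)} : Finset (Fin n)) = {a, b} := rfl
  rw [e0, e1, e2] at h
  have hP : ({a, b, c} : Finset (Fin n)).powersetCard 2 = {{a, b}, {a, c}, {b, c}} := by
    ext s
    simp only [Finset.mem_powersetCard, Finset.mem_insert, Finset.mem_singleton]
    constructor
    · rintro ⟨hs, hcard⟩
      obtain ⟨x, y, hxy, rfl⟩ := Finset.card_eq_two.mp hcard
      have hx : x ∈ ({a, b, c} : Finset (Fin n)) := hs (by simp)
      have hy : y ∈ ({a, b, c} : Finset (Fin n)) := hs (by simp)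
      simp only [Finset.mem_insert, Finset.mem_singleton] at hx hy
      rcases hx with rfl | rfl | rfl <;> rcases hy with rfl | rfl | rfl
      · exact absurd rfl hxy
      · exact Or.inl rfl
      · exact Or.inr (Or.inl rfl)
      · exact Or.inl (Finset.pair_comm _ _)
      · exact absurd rfl hxy
      · exact Or.inr (Or.inr rfl)
      · exact Or.inr (Or.inl (Finset.pair_comm _ _))
      · exact Or.inr (Or.inr (Finset.pair_comm _ _))
      · exact absurd rfl hxy
    · rintro (rfl | rfl | rfl)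
      · refine ⟨?_, Finset.card_pair hab⟩
        intro v hv
        simp only [Finset.mem_insert, Finset.mem_singleton] at hv ⊢
        tauto
      · refine ⟨?_, Finset.card_pair hac⟩
        intro v hv
        simp only [Finset.mem_insert, Finset.mem_singleton] at hv ⊢
        tauto
      · refine ⟨?_, Finset.card_pair hbc⟩
        intro v hv
        simp only [Finset.mem_insert, Finset.mem_singleton] at hv ⊢
        tauto
  have hne : ∀ {x y z w : Fin n}, x ≠ z → x ≠ w → ({x, y} : Finset (Fin n)) ≠ {z, w} := by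
    intro x y z w hxz hxw h'
    have : x ∈ ({z, w} : Finset (Fin n)) := h' ▸ (by simp)
    simp only [Finset.mem_insert, Finset.mem_singleton] at this
    tauto
  have h1 : ({a, b} : Finset (Fin n)) ∉ ({{a, c}, {b, c}} : Finset (Finset (Fin n))) := by
    simp only [Finset.mem_insert, Finset.mem_singleton, not_or]
    refine ⟨?_, ?_⟩
    · rw [Finset.pair_comm a b]
      exact hne hab.symm hbc
    · exact hne hab hac
  have h2 : ({a, c} : Finset (Fin n)) ∉ ({{b, c}} : Finset (Finset (Fin n))) := by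
    simp only [Finset.mem_singleton]
    exact hne hab hac
  rw [hP, Finset.sum_insert h1, Finset.sum_insert h2, Finset.sum_singleton]
  linarith

end Crest.Agent.Helper56.SW
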