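import Crest.Agent.Helper17.SW.TwoPairSpec

/-!
# S0453 (helper56): generic consequences of `Coords` on a diamond fibre (block sum `2`)

Leaves for the transport of the abstract diamond inequality to `Helper17.SW.DiaStmt`:
the six-block decomposition of a sum over a fibre `Φ` with coordinates `(M, A, C)`, the classes
of the two keys in coordinates, and the class sums.  Mathlib + `Helper17/SW/{Avg,TwoPairSpec}`.
-/

set_option autoImplicit false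
set_option linter.unusedSectionVars false

namespace Crest.Agent.Helper56.SW

open Finset
open Crest.Agent.Helper17.SW

/-- the block `{au, av}` (`rho = 2`, `kap = 1`). -/
def bUp : Blk4 := (true, true, false, false)
/-- the block `{bu, bv}` (`rho = 0`, `kap = 1`). -/
def bDn : Blk4 := (false, false, true, true)
/-- the block `{au, bu}` (`rho = 1`, `kap = 2`). -/
def bLf : Blk4 := (true, false, true, false)
/-- the block `{av, bv}` (`rho = 1`, `kap = 0`). -/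
def bRt : Blk4 := (false, true, false, true)

section

variable {X L L' 𝒜 𝒞 : Type*} [DecidableEq L] [DecidableEq L']
  {Φ : Finset X} {ℓ : X → L} {ℓ' : X → L'} {M : X → Blk4} {A : X → 𝒜} {C : X → 𝒞}
  {m : ℕ} {As : ℕ → Finset 𝒜} {Cs : ℕ → Finset 𝒞}

/-- **(L1)** the states of a fibre with a given block are a rectangle. -/
lemma fibre_sum (hc : Coords Φ ℓ ℓ' M A C m As Cs) {μ : Blk4} (hμ : μ.tot = m)
    (G : 𝒜 → 𝒞 → ℝ) :
    ∑ x ∈ Φ.filter (fun x => M x = μ), G (A x) (C x)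
      = ∑ a ∈ As μ.rho, ∑ c ∈ Cs μ.kap, G a c := by
  classical
  rw [← Finset.sum_product']
  refine Finset.sum_bij (fun x _ => (A x, C x)) ?_ ?_ ?_ ?_
  · intro x hx
    obtain ⟨hxΦ, hxM⟩ := Finset.mem_filter.1 hx
    have := (hc.img μ (A x) (C x)).1 ⟨x, hxΦ, hxM, rfl, rfl⟩
    exact Finset.mem_product.2 ⟨this.2.1, this.2.2⟩
  · intro x hx y hy hxy
    obtain ⟨hxΦ, hxM⟩ := Finset.mem_filter.1 hx
    obtain ⟨hyΦ, hyM⟩ := Finset.mem_filter.1 hy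
    exact hc.inj x hxΦ y hyΦ (hxM.trans hyM.symm) (congrArg Prod.fst hxy) (congrArg Prod.snd hxy)
  · rintro ⟨a, c⟩ hac
    obtain ⟨ha, hc'⟩ := Finset.mem_product.1 hac
    obtain ⟨x, hxΦ, hxM, hxA, hxC⟩ := (hc.img μ a c).2 ⟨hμ, ha, hc'⟩
    exact ⟨x, Finset.mem_filter.2 ⟨hxΦ, hxM⟩, by rw [hxA, hxC]⟩
  · intro x _
    rfl

/-- the sum over a fibre, block by block. -/
lemma sum_by_block (hc : Coords Φ ℓ ℓ' M A C m As Cs) (G : Blk4 → 𝒜 → 𝒞 → ℝ) :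
    ∑ x ∈ Φ, G (M x) (A x) (C x)
      = ∑ μ : Blk4, if μ.tot = m then ∑ a ∈ As μ.rho, ∑ c ∈ Cs μ.kap, G μ a c else 0 := by
  classical
  rw [← Finset.sum_fiberwise Φ M]
  refine Finset.sum_congr rfl fun μ _ => ?_
  split_ifs with hμ
  · rw [← fibre_sum hc hμ (G μ)]
    exact Finset.sum_congr rfl fun x hx => by rw [(Finset.mem_filter.1 hx).2]
  · refine Finset.sum_eq_zero fun x hx => ?_
    obtain ⟨hxΦ, hxM⟩ := Finset.mem_filter.1 hx
    exact absurd ((hc.img μ (A x) (C x)).1 ⟨x, hxΦ, hxM, rfl, rfl⟩).1 hμ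

/-- **(L2)** the six-block decomposition of a sum over a diamond fibre. -/
lemma sum_blocks (hc : Coords Φ ℓ ℓ' M A C 2 As Cs) (G : Blk4 → 𝒜 → 𝒞 → ℝ) :
    ∑ x ∈ Φ, G (M x) (A x) (C x)
      = ∑ a ∈ As 1, ∑ c ∈ Cs 1, G Blk4.cp a c + ∑ a ∈ As 1, ∑ c ∈ Cs 1, G Blk4.cm a c
        + ∑ a ∈ As 2, ∑ c ∈ Cs 1, G bUp a c + ∑ a ∈ As 0, ∑ c ∈ Cs 1, G bDn a c
        + ∑ a ∈ As 1, ∑ c ∈ Cs 2, G bLf a c + ∑ a ∈ As 1, ∑ c ∈ Cs 0, G bRt a c := by
  rw [sum_by_block hc G]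
  simp only [Fintype.sum_prod_type, Fintype.sum_bool, Blk4.tot, Blk4.rho, Blk4.kap, Blk4.cp,
    Blk4.cm, bUp, bDn, bLf, bRt]
  norm_num
  ring

/-- **(L3)** the class of the key `ℓ` in coordinates. -/
lemma cls_eq_filter (hc : Coords Φ ℓ ℓ' M A C m As Cs) [DecidableEq 𝒞] {x : X} (hx : x ∈ Φ) :
    cls Φ ℓ x = Φ.filter (fun y => (M y).kap = (M x).kap ∧ C y = C x) := by
  ext y
  simp only [mem_cls, Finset.mem_filter]
  constructor
  · rintro ⟨hy, hyx⟩; exact ⟨hy, (hc.key y hy x hx).1 hyx⟩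
  · rintro ⟨hy, hyx⟩; exact ⟨hy, (hc.key y hy x hx).2 hyx⟩

/-- **(L3')** the class of the key `ℓ'` in coordinates. -/
lemma cls_eq_filter' (hc : Coords Φ ℓ ℓ' M A C m As Cs) [DecidableEq 𝒜] {x : X} (hx : x ∈ Φ) :
    cls Φ ℓ' x = Φ.filter (fun y => (M y).rho = (M x).rho ∧ A y = A x) := by
  ext y
  simp only [mem_cls, Finset.mem_filter]
  constructor
  · rintro ⟨hy, hyx⟩; exact ⟨hy, (hc.key' y hy x hx).1 hyx⟩
  · rintro ⟨hy, hyx⟩; exact ⟨hy, (hc.key' y hy x hx).2 hyx⟩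

/-- the table of `f` in coordinates (choice-free: a sum over at most one state). -/
noncomputable def valF [DecidableEq 𝒜] [DecidableEq 𝒞] (Φ : Finset X) (M : X → Blk4)
    (A : X → 𝒜) (C : X → 𝒞) (f : X → ℝ) (μ : Blk4) (a : 𝒜) (c : 𝒞) : ℝ :=
  ∑ x ∈ Φ.filter (fun x => M x = μ ∧ A x = a ∧ C x = c), f x

lemma valF_apply (hc : Coords Φ ℓ ℓ' M A C m As Cs) [DecidableEq 𝒜] [DecidableEq 𝒞]
    (f : X → ℝ) {x : X} (hx : x ∈ Φ) : valF Φ M A C f (M x) (A x) (C x) = f x := by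
  rw [valF]
  refine Finset.sum_eq_single x ?_ ?_
  · intro y hy hyx
    obtain ⟨hyΦ, h1, h2, h3⟩ := Finset.mem_filter.1 hy
    exact absurd (hc.inj y hyΦ x hx h1 h2 h3) hyx
  · intro h
    exact absurd (Finset.mem_filter.2 ⟨hx, rfl, rfl, rfl⟩) h

/-- the mean of `f` over the `ℓ`-class with coordinates `(k, c)`. -/
noncomputable def qC [DecidableEq 𝒞] (Φ : Finset X) (M : X → Blk4) (C : X → 𝒞) (f : X → ℝ)
    (k : ℕ) (c : 𝒞) : ℝ :=
  (∑ y ∈ Φ.filter (fun y => (M y).kap = k ∧ C y = c), f y)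
    / ((Φ.filter (fun y => (M y).kap = k ∧ C y = c)).card : ℝ)

/-- the mean of `f` over the `ℓ'`-class with coordinates `(r, a)`. -/
noncomputable def qA [DecidableEq 𝒜] (Φ : Finset X) (M : X → Blk4) (A : X → 𝒜) (f : X → ℝ)
    (r : ℕ) (a : 𝒜) : ℝ :=
  (∑ y ∈ Φ.filter (fun y => (M y).rho = r ∧ A y = a), f y)
    / ((Φ.filter (fun y => (M y).rho = r ∧ A y = a)).card : ℝ)

lemma avg_eq_qC (hc : Coords Φ ℓ ℓ' M A C m As Cs) [DecidableEq 𝒞] (f : X → ℝ) {x : X}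
    (hx : x ∈ Φ) : avg Φ ℓ f x = qC Φ M C f (M x).kap (C x) := by
  rw [avg, cls_eq_filter hc hx, qC]

lemma avg_eq_qA (hc : Coords Φ ℓ ℓ' M A C m As Cs) [DecidableEq 𝒜] (f : X → ℝ) {x : X}
    (hx : x ∈ Φ) : avg Φ ℓ' f x = qA Φ M A f (M x).rho (A x) := by
  rw [avg, cls_eq_filter' hc hx, qA]

/-- `card * mean = sum`, also for an empty class. -/
lemma card_mul_mean {ι : Type*} (s : Finset ι) (g : ι → ℝ) :
    (s.card : ℝ) * ((∑ y ∈ s, g y) / (s.card : ℝ)) = ∑ y ∈ s, g y := by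
  rcases s.eq_empty_or_nonempty with rfl | hs
  · simp
  · have : (s.card : ℝ) ≠ 0 := by exact_mod_cast hs.card_pos.ne'
    field_simp

/-- **(L4)** a sum over the `ℓ`-class `(k, c0)`, block by block. -/
lemma class_sum (hc : Coords Φ ℓ ℓ' M A C 2 As Cs) [DecidableEq 𝒞] (G : Blk4 → 𝒜 → 𝒞 → ℝ)
    (k : ℕ) (c0 : 𝒞) :
    ∑ y ∈ Φ.filter (fun y => (M y).kap = k ∧ C y = c0), G (M y) (A y) (C y)
      = (if k = 1 ∧ c0 ∈ Cs 1 then ∑ a ∈ As 1, (G Blk4.cp a c0 + G Blk4.cm a c0)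
            + ∑ a ∈ As 2, G bUp a c0 + ∑ a ∈ As 0, G bDn a c0 else 0)
        + (if k = 2 ∧ c0 ∈ Cs 2 then ∑ a ∈ As 1, G bLf a c0 else 0)
        + (if k = 0 ∧ c0 ∈ Cs 0 then ∑ a ∈ As 1, G bRt a c0 else 0) := by
  rw [Finset.sum_filter,
    sum_blocks hc (fun μ a c => if μ.kap = k ∧ c = c0 then G μ a c else 0)]
  have e1 : Blk4.cp.kap = 1 := rfl
  have e2 : Blk4.cm.kap = 1 := rfl
  have e3 : bUp.kap = 1 := rfl
  have e4 : bDn.kap = 1 := rfl
  have e5 : bLf.kap = 2 := rfl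
  have e6 : bRt.kap = 0 := rfl
  simp only [e1, e2, e3, e4, e5, e6]
  have key : ∀ (j : ℕ) (S : Finset 𝒜) (T : Finset 𝒞) (H : 𝒜 → 𝒞 → ℝ),
      ∑ a ∈ S, ∑ c ∈ T, (if j = k ∧ c = c0 then H a c else 0)
        = if k = j ∧ c0 ∈ T then ∑ a ∈ S, H a c0 else 0 := by
    intro j S T H
    by_cases hj : j = k
    · subst hj
      by_cases hT : c0 ∈ T
      · simp [hT, Finset.sum_ite_eq']
      · have : ∀ a ∈ S, ∑ c ∈ T, (if c = c0 then H a c else 0) = 0 := by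
          intro a _
          refine Finset.sum_eq_zero fun c hcT => ?_
          rw [if_neg]
          rintro rfl
          exact hT hcT
        simp [hT]
    · have hj' : ¬ k = j := fun h => hj h.symm
      simp [hj, hj']
  rw [key, key, key, key, key, key]
  by_cases h1 : k = 1 ∧ c0 ∈ Cs 1
  · have h2 : ¬ (k = 2 ∧ c0 ∈ Cs 2) := by rintro ⟨h, -⟩; omega
    have h0 : ¬ (k = 0 ∧ c0 ∈ Cs 0) := by rintro ⟨h, -⟩; omega
    simp only [if_pos h1, if_neg h2, if_neg h0, Finset.sum_add_distrib]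
  · simp only [if_neg h1]
    ring

/-- **(L4')** a sum over the `ℓ'`-class `(r, a0)`, block by block. -/
lemma class_sum' (hc : Coords Φ ℓ ℓ' M A C 2 As Cs) [DecidableEq 𝒜] (G : Blk4 → 𝒜 → 𝒞 → ℝ)
    (r : ℕ) (a0 : 𝒜) :
    ∑ y ∈ Φ.filter (fun y => (M y).rho = r ∧ A y = a0), G (M y) (A y) (C y)
      = (if r = 1 ∧ a0 ∈ As 1 then ∑ c ∈ Cs 1, (G Blk4.cp a0 c + G Blk4.cm a0 c)
            + ∑ c ∈ Cs 2, G bLf a0 c + ∑ c ∈ Cs 0, G bRt a0 c else 0)
        + (if r = 2 ∧ a0 ∈ As 2 then ∑ c ∈ Cs 1, G bUp a0 c else 0)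
        + (if r = 0 ∧ a0 ∈ As 0 then ∑ c ∈ Cs 1, G bDn a0 c else 0) := by
  rw [Finset.sum_filter,
    sum_blocks hc (fun μ a c => if μ.rho = r ∧ a = a0 then G μ a c else 0)]
  have e1 : Blk4.cp.rho = 1 := rfl
  have e2 : Blk4.cm.rho = 1 := rfl
  have e3 : bUp.rho = 2 := rfl
  have e4 : bDn.rho = 0 := rfl
  have e5 : bLf.rho = 1 := rfl
  have e6 : bRt.rho = 1 := rfl
  simp only [e1, e2, e3, e4, e5, e6]
  have key : ∀ (j : ℕ) (S : Finset 𝒜) (T : Finset 𝒞) (H : 𝒜 → 𝒞 → ℝ),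
      ∑ a ∈ S, ∑ c ∈ T, (if j = r ∧ a = a0 then H a c else 0)
        = if r = j ∧ a0 ∈ S then ∑ c ∈ T, H a0 c else 0 := by
    intro j S T H
    rw [Finset.sum_comm]
    by_cases hj : j = r
    · subst hj
      by_cases hS : a0 ∈ S
      · simp [hS, Finset.sum_ite_eq']
      · have : ∀ c ∈ T, ∑ a ∈ S, (if a = a0 then H a c else 0) = 0 := by
          intro c _
          refine Finset.sum_eq_zero fun a haS => ?_
          rw [if_neg]
          rintro rfl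
          exact hS haS
        simp [hS]
    · have hj' : ¬ r = j := fun h => hj h.symm
      simp [hj, hj']
  rw [key, key, key, key, key, key]
  by_cases h1 : r = 1 ∧ a0 ∈ As 1
  · have h2 : ¬ (r = 2 ∧ a0 ∈ As 2) := by rintro ⟨h, -⟩; omega
    have h0 : ¬ (r = 0 ∧ a0 ∈ As 0) := by rintro ⟨h, -⟩; omega
    simp only [if_pos h1, if_neg h2, if_neg h0, Finset.sum_add_distrib]
    ring
  · simp only [if_neg h1]
    ring

lemma ctr_kap {μ : Blk4} (h : μ.ctr) : μ.kap = 1 := by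
  rcases h with rfl | rfl <;> rfl

lemma ctr_rho {μ : Blk4} (h : μ.ctr) : μ.rho = 1 := by
  rcases h with rfl | rfl <;> rfl

/-- a sum over the centre states with `C = c0`. -/
lemma ctr_sum (hc : Coords Φ ℓ ℓ' M A C 2 As Cs) [DecidableEq 𝒞] (G : Blk4 → 𝒜 → 𝒞 → ℝ)
    {c0 : 𝒞} (hc0 : c0 ∈ Cs 1) :
    ∑ y ∈ Φ.filter (fun y => (M y).ctr ∧ C y = c0), G (M y) (A y) (C y)
      = ∑ a ∈ As 1, (G Blk4.cp a c0 + G Blk4.cm a c0) := by
  rw [Finset.sum_filter,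
    sum_blocks hc (fun μ a c => if μ.ctr ∧ c = c0 then G μ a c else 0)]
  have e1 : Blk4.cp.ctr := Or.inl rfl
  have e2 : Blk4.cm.ctr := Or.inr rfl
  have e3 : ¬ bUp.ctr := by decide
  have e4 : ¬ bDn.ctr := by decide
  have e5 : ¬ bLf.ctr := by decide
  have e6 : ¬ bRt.ctr := by decide
  simp only [e1, e2, e3, e4, e5, e6, true_and, false_and, if_false, Finset.sum_const_zero,
    add_zero, Finset.sum_ite_eq', hc0, if_true, Finset.sum_add_distrib]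

/-- a sum over the centre states with `A = a0`. -/
lemma ctr_sum' (hc : Coords Φ ℓ ℓ' M A C 2 As Cs) [DecidableEq 𝒜] (G : Blk4 → 𝒜 → 𝒞 → ℝ)
    {a0 : 𝒜} (ha0 : a0 ∈ As 1) :
    ∑ y ∈ Φ.filter (fun y => (M y).ctr ∧ A y = a0), G (M y) (A y) (C y)
      = ∑ c ∈ Cs 1, (G Blk4.cp a0 c + G Blk4.cm a0 c) := by
  rw [Finset.sum_filter,
    sum_blocks hc (fun μ a c => if μ.ctr ∧ a = a0 then G μ a c else 0)]
  have e1 : Blk4.cp.ctr := Or.inl rfl
  have e2 : Blk4.cm.ctr := Or.inr rfl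
  have e3 : ¬ bUp.ctr := by decide
  have e4 : ¬ bDn.ctr := by decide
  have e5 : ¬ bLf.ctr := by decide
  have e6 : ¬ bRt.ctr := by decide
  simp only [e1, e2, e3, e4, e5, e6, true_and, false_and, if_false, Finset.sum_const_zero,
    add_zero]
  rw [Finset.sum_comm, Finset.sum_comm (s := As 1)]
  simp only [Finset.sum_ite_eq', ha0, if_true, Finset.sum_add_distrib]

end

end Crest.Agent.Helper56.SW
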